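import Vale.Agent.P333.H476.TF.Uniq

set_option autoImplicit false

/-!
P333: the strings of a family for which every greedy superstring is longer than twice a shortest
one, the strings `g0`, `g1`, ... obtained by the steps of the greedy algorithm, and a common
superstring `sup`.
-/

namespace Vale.Agent.P333.H476.TF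

def x0 : List ℕ :=
  [5, 3, 4, 5, 3, 4, 5, 0, 1, 2, 3, 4, 5, 3, 4, 5, 0, 1, 2, 3, 4, 5, 3, 4, 5, 0, 1, 2, 3, 4, 5,
  3, 4, 5, 0, 1, 2, 3, 4, 5, 3, 4, 5, 0, 1, 2, 3, 4, 5, 3, 4, 5, 0, 1, 2, 3, 4, 5, 3, 4, 5, 0,
  1, 2, 3, 4, 5, 3, 4, 5, 0, 1, 2, 3, 4, 5, 3, 4, 5, 0, 1, 2, 3, 4, 5, 3, 4, 5, 3, 4, 5, 0, 1,
  2, 3, 4, 5, 3, 4, 5, 0, 1, 2, 3, 4, 5, 3, 4, 5, 0, 1, 2, 3, 4, 5, 3, 4, 5, 0, 1, 2, 3, 4, 5,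
  3, 4, 5, 0, 1, 2, 3, 4, 5, 3, 4, 5, 0, 1, 2, 3, 4, 5, 3, 4, 5, 0, 1, 2, 3, 4, 5, 3, 4, 5, 0,
  1, 2, 3, 4, 5, 3, 4, 5, 0, 1, 2, 3, 4, 5, 3, 4, 5, 3, 4, 5, 0, 1, 2, 3, 4, 5, 3, 4, 5, 0, 1,
  2, 3, 4, 5, 3, 4, 5, 0, 1, 2, 3, 4, 5, 3, 4, 5, 0, 1, 2, 3, 4, 5, 3, 4, 5, 0, 1, 2, 3, 4, 5,
  3, 4, 5, 0, 1, 2, 3, 4, 5, 3, 4, 5, 0, 1, 2, 3, 4, 5, 3, 4, 5, 0, 1, 2, 3, 4, 5, 3, 4, 5, 0,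
  1, 2, 3, 4, 5, 3, 4, 5, 3, 4, 5, 0, 1, 2, 3, 4, 5, 3, 4, 5, 0, 1, 2, 3, 4, 5, 3, 4, 5, 0, 1,
  2, 3, 4, 5, 3, 4, 5, 0, 1, 2, 3, 4, 5, 3, 4, 5, 0, 1, 2, 3, 4, 5, 3, 4, 5, 0, 1, 2, 3, 4, 5,
  3, 4, 5, 0, 1, 2, 3, 4, 5, 3, 4, 5, 0, 1, 2, 3, 4, 5, 3, 4, 5, 0, 1, 2, 3, 4, 5, 3, 4, 5, 3,
  4, 5, 0, 1, 2, 3, 4, 5, 3, 4, 5, 0, 1, 2, 3, 4, 5, 3, 4, 5, 0, 1, 2, 3, 4, 5, 3, 4, 5, 0, 1,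
  2, 3, 4, 5, 3, 4, 5, 0, 1, 2, 3, 4, 5, 3, 4, 5, 0, 1, 2, 3, 4, 5, 3, 4, 5, 0, 1, 2, 3, 4, 5,
  3, 4, 5, 0, 1, 2, 3, 4, 5, 3, 4, 5, 0, 1, 2, 3, 4, 5, 3, 4]

def y0 : List ℕ :=
  [1, 2, 3, 4, 5, 3, 4, 5, 3, 4, 5, 0, 1, 2, 3, 4, 5, 3, 4, 5, 0, 1, 2, 3, 4, 5, 3, 4, 5, 0, 1,
  2, 3, 4, 5, 3, 4, 5, 0, 1, 2, 3, 4, 5, 3, 4, 5, 0, 1, 2, 3, 4, 5, 3, 4, 5, 0, 1, 2, 3, 4, 5,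
  3, 4, 5, 0, 1, 2, 3, 4, 5, 3, 4, 5, 0, 1, 2, 3, 4, 5, 3, 4, 5, 0, 1, 2, 3, 4, 5, 3, 4, 5, 3,
  4, 5, 0, 1, 2, 3, 4, 5, 3, 4, 5, 0, 1, 2, 3, 4, 5, 3, 4, 5, 0, 1, 2, 3, 4, 5, 3, 4, 5, 0, 1,
  2, 3, 4, 5, 3, 4, 5, 0, 1, 2, 3, 4, 5, 3, 4, 5, 0, 1, 2, 3, 4, 5, 3, 4, 5, 0, 1, 2, 3, 4, 5,
  3, 4, 5, 0, 1, 2, 3, 4, 5, 3, 4, 5, 0, 1, 2, 3, 4, 5, 3, 4, 5, 3, 4, 5, 0, 1, 2, 3, 4, 5, 3,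
  4, 5, 0, 1, 2, 3, 4, 5, 3, 4, 5, 0, 1, 2, 3, 4, 5, 3, 4, 5, 0, 1, 2, 3, 4, 5, 3, 4, 5, 0, 1,
  2, 3, 4, 5, 3, 4, 5, 0, 1, 2, 3, 4, 5, 3, 4, 5, 0, 1, 2, 3, 4, 5, 3, 4, 5, 0, 1, 2, 3, 4, 5,
  3, 4, 5, 0, 1, 2, 3, 4, 5, 3, 4, 5, 3, 4, 5, 0, 1, 2, 3, 4, 5, 3, 4, 5, 0, 1, 2, 3, 4, 5, 3,
  4, 5, 0, 1, 2, 3, 4, 5, 3, 4, 5, 0, 1, 2, 3, 4, 5, 3, 4, 5, 0, 1, 2, 3, 4, 5, 3, 4, 5, 0, 1,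
  2, 3, 4, 5, 3, 4, 5, 0, 1, 2, 3, 4, 5, 3, 4, 5, 0, 1, 2, 3, 4, 5, 3, 4, 5, 0, 1, 2, 3, 4, 5,
  3, 4, 5, 3, 4]

def x1 : List ℕ :=
  [2, 3, 4, 5, 3, 4, 5, 3, 4, 5, 0, 1, 2, 3, 4, 5, 3, 4, 5, 0, 1, 2, 3, 4, 5, 3, 4, 5, 0, 1, 2,
  3, 4, 5, 3, 4, 5, 0, 1, 2, 3, 4, 5, 3, 4, 5, 0, 1, 2, 3, 4, 5, 3, 4, 5, 0, 1, 2, 3, 4, 5, 3,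
  4, 5, 0, 1, 2, 3, 4, 5, 3, 4, 5, 0, 1, 2, 3, 4, 5, 3, 4, 5, 0, 1, 2, 3, 4, 5, 3, 4, 5, 0, 1,
  2, 3, 4, 5, 3, 4, 5, 0, 1, 2, 3, 4, 5, 3, 4, 5, 3, 4, 5, 0, 1, 2, 3, 4, 5, 3, 4, 5, 0, 1, 2,
  3, 4, 5, 3, 4, 5, 0, 1, 2, 3, 4, 5, 3, 4, 5, 0, 1, 2, 3, 4, 5, 3, 4, 5, 0, 1, 2, 3, 4, 5, 3,
  4, 5, 0, 1, 2, 3, 4, 5, 3, 4, 5, 0, 1, 2, 3, 4, 5, 3, 4, 5, 0, 1, 2, 3, 4, 5, 3, 4, 5, 0, 1,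
  2, 3, 4, 5, 3, 4, 5, 0, 1, 2, 3, 4, 5, 3, 4, 5, 0, 1, 2, 3, 4, 5, 3, 4, 5, 3, 4, 5, 0, 1, 2,
  3, 4, 5, 3, 4, 5, 0, 1, 2, 3, 4, 5, 3, 4, 5, 0, 1, 2, 3, 4, 5, 3, 4, 5, 0]

def y1 : List ℕ :=
  [4, 5, 0, 1, 2, 3, 4, 5, 3, 4, 5, 0, 1, 2, 3, 4, 5, 3, 4, 5, 0, 1, 2, 3, 4, 5, 3, 4, 5, 0, 1,
  2, 3, 4, 5, 3, 4, 5, 0, 1, 2, 3, 4, 5, 3, 4, 5, 0, 1, 2, 3, 4, 5, 3, 4, 5, 0, 1, 2, 3, 4, 5,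
  3, 4, 5, 0, 1, 2, 3, 4, 5, 3, 4, 5, 0, 1, 2, 3, 4, 5, 3, 4, 5, 3, 4, 5, 0, 1, 2, 3, 4, 5, 3,
  4, 5, 0, 1, 2, 3, 4, 5, 3, 4, 5, 0, 1, 2, 3, 4, 5, 3, 4, 5, 0, 1, 2, 3, 4, 5, 3, 4, 5, 0, 1,
  2, 3, 4, 5, 3, 4, 5, 0, 1, 2, 3, 4, 5, 3, 4, 5, 0, 1, 2, 3, 4, 5, 3, 4, 5, 0, 1, 2, 3, 4, 5,
  3, 4, 5, 0, 1, 2, 3, 4, 5, 3, 4, 5, 0, 1, 2, 3, 4, 5, 3, 4, 5, 0, 1, 2, 3, 4, 5, 3, 4, 5, 3,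
  4, 5, 0, 1, 2, 3, 4, 5, 3, 4, 5, 0, 1, 2, 3, 4, 5, 3, 4, 5, 0, 1, 2, 3, 4, 5, 3, 4, 5, 0, 1,
  2, 3, 4, 5, 3, 4, 5, 0, 1, 2, 3, 4, 5, 3, 4, 5, 0, 1, 2, 3, 4, 5, 3, 4, 5, 0, 1, 2, 3, 4, 5,
  3, 4, 5, 0, 1, 2, 3, 4, 5, 3, 4, 5, 0, 1, 2, 3, 4, 5, 3, 4, 5, 0, 1, 2, 3, 4, 5, 3, 4, 5, 0,
  1, 2, 3, 4, 5, 3, 4, 5, 3, 4, 5, 0]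

def x2 : List ℕ :=
  [1, 2, 3, 4, 5, 3, 4, 5, 0, 1, 2, 3, 4, 5, 3, 4, 5, 0, 1, 2, 3, 4, 5, 3, 4, 5, 3, 4, 5, 0, 1,
  2, 3, 4, 5, 3, 4, 5, 0, 1, 2, 3, 4, 5, 3, 4, 5, 0, 1, 2, 3, 4, 5, 3, 4, 5, 0, 1, 2, 6, 7, 8,
  3, 4, 5, 0, 1, 2, 3, 4, 5, 3, 4, 5, 0, 1, 2, 3, 4, 5, 3, 4, 5, 0, 1, 2, 3, 4, 5, 3, 4, 5, 0,
  1, 2, 3, 4, 5, 3, 4, 5, 0, 1, 2, 3, 4, 5, 3, 4, 5, 0, 1, 2, 3, 4, 5, 3, 4, 5, 0, 1, 2, 3, 4,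
  5, 3, 4, 5, 0, 1, 2, 3, 4, 5, 3, 4, 5, 0, 1, 2, 3, 4, 5, 3, 4, 5, 0, 1, 2, 3, 4, 5, 3, 4, 5,
  0, 1, 2, 3, 4, 5, 3, 4, 5, 0, 1, 2, 3, 4, 5, 3, 4, 5, 3, 4, 5, 0, 1, 2, 3, 4, 5, 3, 4, 5, 0,
  1, 2, 3, 4, 5, 3, 4, 5, 0, 1, 2, 3, 4, 5, 3, 4, 5, 0, 1, 2, 6, 7, 8, 3, 4, 5, 0, 1, 2, 3, 4,
  5, 3, 4, 5, 0, 1, 2, 3, 4, 5, 3, 4, 5, 0, 1, 2, 3, 4, 5, 3, 4, 5, 0, 1, 2, 3, 4, 5, 3, 4, 5,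
  0, 1, 2, 3, 4, 5, 3, 4, 5, 0, 1, 2, 3, 4, 5, 3, 4, 5, 0, 1, 2, 3, 4, 5, 3, 4, 5, 0, 1, 2, 3,
  4, 5, 3, 4, 5, 0, 1, 2, 3, 4, 5, 3, 4, 5, 0, 1, 2, 3, 4, 5, 3, 4, 5, 0, 1, 2, 3, 4, 5, 3, 4]

def y2 : List ℕ :=
  [4, 5, 3, 4, 5, 0, 1, 2, 3, 4, 5, 3, 4, 5, 0, 1, 2, 3, 4, 5, 3, 4, 5, 0, 1, 2, 3, 4, 5, 3, 4,
  5, 0, 1, 2, 3, 4, 5, 3, 4, 5, 0, 1, 2, 3, 4, 5, 3, 4, 5, 0, 1, 2, 3, 4, 5, 3, 4, 5, 0, 1, 2,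
  3, 4, 5, 3, 4, 5, 0, 1, 2, 3, 4, 5, 3, 4, 5, 0, 1, 2, 3, 4, 5, 3, 4, 5, 0, 1, 2, 3, 4, 5, 3,
  4, 5, 0, 1, 2, 3, 4, 5, 3, 4, 5, 3, 4, 5, 0, 1, 2, 3, 4, 5, 3, 4, 5, 0, 1, 2, 3, 4, 5, 3, 4,
  5, 0, 1, 2, 3, 4, 5, 3, 4, 5, 0, 1, 2, 6, 7, 8, 3, 4, 5, 0, 1, 2, 3, 4, 5, 3, 4, 5, 0, 1, 2,
  3, 4, 5, 3, 4, 5, 0, 1, 2, 3, 4, 5, 3, 4, 5, 0, 1, 2, 3, 4, 5, 3, 4, 5, 0, 1, 2, 3, 4, 5, 3,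
  4, 5, 0, 1, 2, 3, 4, 5, 3, 4, 5, 0, 1, 2, 3, 4, 5, 3, 4, 5, 0, 1, 2, 3, 4, 5, 3, 4, 5, 0, 1,
  2, 3, 4, 5, 3, 4, 5, 0, 1, 2, 3, 4, 5, 3, 4, 5, 0, 1, 2, 3, 4, 5, 3, 4, 5, 0, 1, 2, 3, 4, 5,
  3, 4, 5, 3, 4, 5, 0, 1, 2, 3, 4, 5, 3, 4, 5, 0, 1, 2, 3, 4, 5, 3, 4, 5, 0, 1, 2, 3, 4, 5, 3,
  4, 5, 0, 1, 2, 6, 7, 8, 3, 4, 5, 0, 1, 2, 3, 4, 5, 3, 4, 5, 0, 1, 2, 3, 4, 5, 3, 4, 5, 0, 1,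
  2, 3, 4, 5, 3, 4, 5, 0]

def x3 : List ℕ :=
  [8, 3, 4, 5, 0, 1, 2, 3, 4, 5, 3, 4, 5, 0, 1, 2, 3, 4, 5, 3, 4, 5, 0, 1, 2, 3, 4, 5, 3, 4, 5,
  0, 1, 2, 3, 4, 5, 3, 4, 5, 0, 1, 2, 3, 4, 5, 3, 4, 5, 0, 1, 2, 3, 4, 5, 3, 4, 5, 0, 1, 2, 3,
  4, 5, 3, 4, 5, 0, 1, 2, 3, 4, 5, 3, 4, 5, 0, 1, 2, 3, 4, 5, 3, 4, 5, 0, 1, 2, 3, 4, 5, 3, 4,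
  5, 0, 1, 2, 3, 4, 5, 3, 4, 5, 3, 4, 5, 0, 1, 2, 3, 4, 5, 3, 4, 5, 0, 1, 2, 3, 4, 5, 3, 4, 5,
  0, 1, 2, 3, 4, 5, 3, 4, 5, 0, 1, 2, 6, 7, 8, 3, 4, 5, 0, 1, 2, 3, 4, 5, 3, 4, 5, 0, 1, 2, 3,
  4, 5, 3, 4, 5, 0, 1, 2, 3, 4, 5, 3, 4, 5, 0, 1, 2, 3, 4, 5, 3, 4, 5, 0, 1, 2, 3, 4, 5, 3, 4,
  5, 0, 1, 2, 3, 4, 5, 3, 4, 5, 0, 1, 2, 3, 4, 5, 3, 4, 5, 0, 1, 2, 3, 4, 5, 3, 4, 5, 0, 1, 2,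
  3, 4, 5, 3, 4, 5, 0, 1, 2, 3, 4, 5, 3, 4, 5, 0, 1, 2, 3, 4, 5, 3, 4, 5, 3, 4, 5, 0, 1, 2, 3,
  4, 5, 3, 4, 5, 0, 1, 2, 3, 4, 5, 3, 4, 5, 0, 1, 2, 3, 4, 5, 3, 4, 5, 0, 1, 2, 6, 7, 8, 3, 4,
  5, 0, 1, 2, 3, 4, 5, 3, 4, 5, 0, 1, 2, 3, 4, 5, 3, 4, 5, 0, 1, 2, 3, 4, 5, 3, 4, 5, 0, 1, 2,
  3, 4, 5, 3, 4, 5, 0, 1, 2, 3, 4, 5, 3, 4, 5, 0, 1, 2, 3, 4, 5, 3, 4, 5, 0, 1, 2, 3, 4, 5, 3,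
  4, 5, 0, 1, 2, 3, 4, 5, 3, 4, 5, 0, 1, 2, 3, 4, 5, 3, 4, 5, 0, 1, 2, 3, 4, 5, 3, 4, 5, 0, 1,
  2, 3, 4, 5, 3, 4, 5, 3, 4, 5, 0, 1, 2, 3, 4, 5, 3, 4]

def y3 : List ℕ :=
  [4, 5, 0, 1, 2, 3, 4, 5, 3, 4, 5, 0, 1, 2, 3, 4, 5, 3, 4, 5, 0, 1, 2, 3, 4, 5, 3, 4, 5, 0, 1,
  2, 3, 4, 5, 3, 4, 5, 0, 1, 2, 3, 4, 5, 3, 4, 5, 0, 1, 2, 3, 4, 5, 3, 4, 5, 0, 1, 2, 3, 4, 5,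
  3, 4, 5, 0, 1, 2, 3, 4, 5, 3, 4, 5, 0, 1, 2, 3, 4, 5, 3, 4, 5, 0, 1, 2, 3, 4, 5, 3, 4, 5, 0,
  1, 2, 3, 4, 5, 3, 4, 5, 3, 4, 5, 0, 1, 2, 3, 4, 5, 3, 4, 5, 0, 1, 2, 3, 4, 5, 3, 4, 5, 0, 1,
  2, 3, 4, 5, 3, 4, 5, 0, 1, 2, 6, 7, 8, 3, 4, 5, 0, 1, 2, 3, 4, 5, 3, 4, 5, 0, 1, 2, 3, 4, 5,
  3, 4, 5, 0, 1, 2, 3, 4, 5, 3, 4, 5, 0, 1, 2, 3, 4, 5, 3, 4, 5, 0, 1, 2, 3, 4, 5, 3, 4, 5, 0,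
  1, 2, 3, 4, 5, 3, 4, 5, 0, 1, 2, 3, 4, 5, 3, 4, 5, 0, 1, 2, 3, 4, 5, 3, 4, 5, 0, 1, 2, 3, 4,
  5, 3, 4, 5, 0, 1, 2, 3, 4, 5, 3, 4, 5, 0, 1, 2, 3, 4, 5, 3, 4, 5, 3, 4, 5, 0, 1, 2, 3, 4, 5,
  3, 4, 5, 0, 1, 2, 3, 4, 5, 3, 4, 5, 0, 1, 2, 3, 4, 5, 3, 4, 5, 0, 1, 2, 6, 7, 8, 3, 4, 5, 0,
  1, 2, 3, 4, 5, 3, 4, 5, 0, 1, 2, 3, 4, 5, 3, 4, 5, 0, 1, 2, 3, 4, 5, 3, 4, 5, 0, 1, 2, 3, 4,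
  5, 3, 4, 5, 0, 1, 2, 3, 4, 5, 3, 4, 5, 0, 1, 2, 3, 4, 5, 3, 4, 5, 0, 1, 2, 3, 4, 5, 3, 4, 5,
  0, 1, 2, 3, 4, 5, 3, 4, 5, 0, 1, 2, 3, 4, 5, 3, 4, 5, 0, 1, 2, 3, 4, 5, 3, 4, 5, 0, 1, 2, 3,
  4, 5, 3, 4, 5, 3, 4, 5, 0, 1, 2, 3, 4, 5, 3, 4, 5, 0, 1, 2, 3, 4, 5, 3, 4, 5, 0, 1, 2, 3, 4,
  5, 3, 4, 5, 0, 1, 2, 6, 7, 8, 3, 4, 5, 0, 1, 2, 3, 4, 5, 3, 4, 5, 0, 1, 2, 3, 4, 5, 3, 4, 5,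
  0, 1, 2, 3, 4, 5, 3, 4, 5, 0, 1, 2, 3, 4, 5, 3, 4, 5, 0, 1, 2, 3, 4, 5, 3, 4, 5, 0, 1, 2, 3,
  4, 5, 3, 4, 5, 0, 1, 2, 3, 4, 5, 3, 4, 5, 0, 1, 2, 3, 4, 5, 3, 4, 5, 0, 1, 2, 3, 4, 5, 3, 4,
  5, 0, 1, 2, 3, 4, 5, 3, 4, 5, 0, 1, 2, 3, 4, 5, 3, 4, 5, 3, 4, 5, 0, 1, 2, 3]

def h0 : List ℕ :=
  [9, 0, 1, 2, 3, 4, 5, 3, 4, 5, 3, 4, 5, 0, 1, 2, 3, 4, 5, 3, 4, 5, 0, 1, 2, 3, 4, 5, 3, 4, 5,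
  0, 1, 2, 3, 4, 5, 3, 4, 5, 0, 1, 2, 3, 4, 5, 3, 4, 5, 0, 1, 2, 3, 4, 5, 3, 4, 5, 0, 1, 2, 3,
  4, 5, 3, 4, 5, 0, 1, 2, 3, 4, 5, 3, 4, 5, 0, 1, 2, 3, 4, 5, 3, 4, 5, 0, 1, 2, 3, 4, 5, 3, 4,
  5, 3, 4, 5, 0, 1, 2, 3, 4, 5, 3, 4, 5, 0, 1, 2, 3, 4, 5, 3, 4, 5, 0, 1, 2, 3, 4, 5, 3, 4, 5,
  0, 1, 2, 3, 4, 5, 3, 4, 5, 0, 1, 2, 3, 4, 5, 3, 4, 5, 0, 1, 2, 3, 4, 5, 3, 4, 5, 0, 1, 2, 3,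
  4, 5, 3, 4, 5, 0, 1, 2, 3, 4, 5, 3, 4, 5, 0, 1, 2, 3, 4, 5, 3, 4, 5, 3, 4, 5, 0, 1, 2, 3, 4,
  5, 3, 4, 5, 0, 1, 2, 3, 4, 5, 3, 4, 5, 0, 1, 2, 3, 4, 5, 3, 4, 5, 0, 1, 2, 3, 4, 5, 3, 4, 5,
  0, 1, 2, 3, 4, 5, 3, 4, 5, 0, 1, 2, 3, 4, 5, 3, 4, 5, 0, 1, 2, 3, 4, 5, 3, 4, 5, 0, 1, 2, 3,
  4, 5, 3, 4, 5, 0, 1, 2, 3, 4, 5, 3, 4, 5, 3, 4, 5, 0, 1, 2, 3, 4, 5, 3, 4, 5, 0, 1, 2, 3, 4,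
  5, 3, 4, 5, 0, 1, 2, 3, 4, 5, 3, 4, 5, 0, 1, 2, 3, 4, 5, 3, 4, 5, 0, 1, 2, 3, 4, 5, 3, 4, 5,
  0, 1, 2, 3, 4, 5, 3, 4, 5, 0, 1, 2, 3, 4, 5, 3, 4, 5, 0, 1, 2, 3, 4, 5, 3, 4, 5, 0, 1, 2, 3,
  4, 5, 3, 4, 5]

def h1 : List ℕ :=
  [0, 1, 2, 3, 4, 5, 3, 4, 5, 3, 4, 5, 0, 1, 2, 3, 4, 5, 3, 4, 5, 0, 1, 2, 3, 4, 5, 3, 4, 5, 0,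
  1, 2, 3, 4, 5, 3, 4, 5, 0, 1, 2, 3, 4, 5, 3, 4, 5, 0, 1, 2, 3, 4, 5, 3, 4, 5, 0, 1, 2, 3, 4,
  5, 3, 4, 5, 0, 1, 2, 3, 4, 5, 3, 4, 5, 0, 1, 2, 3, 4, 5, 3, 4, 5, 0, 1, 2, 3, 4, 5, 3, 4, 5,
  3, 4, 5, 0, 1, 2, 3, 4, 5, 3, 4, 5, 0, 1, 2, 3, 4, 5, 3, 4, 5, 0, 1, 2, 3, 4, 5, 3, 4, 5, 0,
  1, 2, 3, 4, 5, 3, 4, 5, 0, 1, 2, 3, 4, 5, 3, 4, 5, 0, 1, 2, 3, 4, 5, 3, 4, 5, 0, 1, 2, 3, 4,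
  5, 3, 4, 5, 0, 1, 2, 3, 4, 5, 3, 4, 5, 0, 1, 2, 3, 4, 5, 3, 4, 5, 3, 4, 5, 0, 1, 2, 3, 4, 5,
  3, 4, 5, 0, 1, 2, 3, 4, 5, 3, 4, 5, 0, 1, 2, 3, 4, 5, 3, 4, 5, 0, 1, 2, 3, 4, 5, 3, 4, 5, 0,
  1, 2, 3, 4, 5, 3, 4, 5, 0, 1, 2, 3, 4, 5, 3, 4, 5, 0, 1, 2, 3, 4, 5, 3, 4, 5, 0, 1, 2, 3, 4,
  5, 3, 4, 5, 0, 1, 2, 3, 4, 5, 3, 4, 5, 3, 4, 5, 0, 1, 2, 3, 4, 5, 3, 4, 5, 0, 1, 2, 3, 4, 5,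
  3, 4, 5, 0, 1, 2, 3, 4, 5, 3, 4, 5, 0, 1, 2, 3, 4, 5, 3, 4, 5, 0, 1, 2, 3, 4, 5, 3, 4, 5, 0,
  1, 2, 3, 4, 5, 3, 4, 5, 0, 1, 2, 3, 4, 5, 3, 4, 5, 0, 1, 2, 3, 4, 5, 3, 4, 5, 0, 1, 2, 3, 4,
  5, 3, 4, 5, 0, 1, 2, 3, 4, 5, 3, 4, 5, 0, 1, 2, 3, 4, 5, 3, 4, 5, 3, 4, 5, 0, 1, 2, 3, 4, 5,
  3, 4, 5, 0, 1, 2, 3, 4, 5, 3, 4, 5, 0, 1, 2, 3, 4, 5, 3, 4, 5, 0, 1, 2]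

def h2 : List ℕ :=
  [3, 4, 5, 0, 1, 2, 3, 4, 5, 3, 4, 5, 0, 1, 2, 3, 4, 5, 3, 4, 5, 0, 1, 2, 3, 4, 5, 3, 4, 5, 0,
  1, 2, 3, 4, 5, 3, 4, 5, 0, 1, 2, 3, 4, 5, 3, 4, 5, 0, 1, 2, 3, 4, 5, 3, 4, 5, 0, 1, 2, 3, 4,
  5, 3, 4, 5, 0, 1, 2, 3, 4, 5, 3, 4, 5, 0, 1, 2, 3, 4, 5, 3, 4, 5, 3, 4, 5, 0, 1, 2, 3, 4, 5,
  3, 4, 5, 0, 1, 2, 3, 4, 5, 3, 4, 5, 0, 1, 2, 3, 4, 5, 3, 4, 5, 0, 1, 2, 3, 4, 5, 3, 4, 5, 0,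
  1, 2, 3, 4, 5, 3, 4, 5, 0, 1, 2, 3, 4, 5, 3, 4, 5, 0, 1, 2, 3, 4, 5, 3, 4, 5, 0, 1, 2, 3, 4,
  5, 3, 4, 5, 0, 1, 2, 3, 4, 5, 3, 4, 5, 0, 1, 2, 3, 4, 5, 3, 4, 5, 0, 1, 2, 3, 4, 5, 3, 4, 5,
  3, 4, 5, 0, 1, 2, 3, 4, 5, 3, 4, 5, 0, 1, 2, 3, 4, 5, 3, 4, 5, 0, 1, 2, 3, 4, 5, 3, 4, 5, 0,
  1, 2, 6, 7, 8, 3, 4, 5, 0, 1, 2, 3, 4, 5, 3, 4, 5, 0, 1, 2, 3, 4, 5, 3, 4, 5, 0, 1, 2, 3, 4,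
  5, 3, 4, 5, 0, 1, 2, 3, 4, 5, 3, 4, 5, 0, 1, 2, 3, 4, 5, 3, 4, 5, 0, 1, 2, 3, 4, 5, 3, 4, 5,
  0, 1, 2, 3, 4, 5, 3, 4, 5, 0, 1, 2, 3, 4, 5, 3, 4, 5, 0, 1, 2, 3, 4, 5, 3, 4, 5, 0, 1, 2, 3,
  4, 5, 3, 4, 5, 0, 1, 2, 3, 4, 5, 3, 4, 5]

def h3 : List ℕ :=
  [3, 4, 5, 3, 4, 5, 0, 1, 2, 3, 4, 5, 3, 4, 5, 0, 1, 2, 3, 4, 5, 3, 4, 5, 0, 1, 2, 3, 4, 5, 3,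
  4, 5, 0, 1, 2, 3, 4, 5, 3, 4, 5, 0, 1, 2, 3, 4, 5, 3, 4, 5, 0, 1, 2, 3, 4, 5, 3, 4, 5, 0, 1,
  2, 3, 4, 5, 3, 4, 5, 0, 1, 2, 3, 4, 5, 3, 4, 5, 0, 1, 2, 3, 4, 5, 3, 4, 5, 0, 1, 2, 3, 4, 5,
  3, 4, 5, 0, 1, 2, 3, 4, 5, 3, 4, 5, 3, 4, 5, 0, 1, 2, 3, 4, 5, 3, 4, 5, 0, 1, 2, 3, 4, 5, 3,
  4, 5, 0, 1, 2, 3, 4, 5, 3, 4, 5, 0, 1, 2, 6, 7, 8, 3, 4, 5, 0, 1, 2, 3, 4, 5, 3, 4, 5, 0, 1,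
  2, 3, 4, 5, 3, 4, 5, 0, 1, 2, 3, 4, 5, 3, 4, 5, 0, 1, 2, 3, 4, 5, 3, 4, 5, 0, 1, 2, 3, 4, 5,
  3, 4, 5, 0, 1, 2, 3, 4, 5, 3, 4, 5, 0, 1, 2, 3, 4, 5, 3, 4, 5, 0, 1, 2, 3, 4, 5, 3, 4, 5, 0,
  1, 2, 3, 4, 5, 3, 4, 5, 0, 1, 2, 3, 4, 5, 3, 4, 5, 0, 1, 2, 3, 4, 5, 3, 4, 5, 3, 4, 5, 0, 1,
  2, 3, 4, 5, 3, 4, 5, 0, 1, 2, 3, 4, 5, 3, 4, 5, 0, 1, 2, 3, 4, 5, 3, 4, 5, 0, 1, 2, 6, 7, 8,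
  3, 4, 5, 0, 1, 2, 3, 4, 5, 3, 4, 5, 0, 1, 2, 3, 4, 5, 3, 4, 5, 0, 1, 2, 3, 4, 5, 3, 4, 5, 0,
  1, 2, 3, 4, 5, 3, 4, 5, 0, 1, 2, 3, 4, 5, 3, 4, 5, 0, 1, 2, 3, 4, 5, 3, 4, 5, 0, 1, 2, 3, 4,
  5, 3, 4, 5, 0, 1, 2, 3, 4, 5, 3, 4, 5, 0, 1, 2, 3, 4, 5, 3, 4, 5, 0, 1, 2, 3, 4, 5, 3, 4, 5,
  0, 1, 2, 3, 4, 5, 3, 4, 5, 3, 4, 5, 0, 1, 2, 3, 4, 5, 3, 4, 5]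

def h4 : List ℕ :=
  [3, 4, 5, 0, 1, 2, 3, 4, 5, 3, 4, 5, 0, 1, 2, 3, 4, 5, 3, 4, 5, 0, 1, 2, 3, 4, 5, 3, 4, 5, 0,
  1, 2, 3, 4, 5, 3, 4, 5, 0, 1, 2, 3, 4, 5, 3, 4, 5, 0, 1, 2, 3, 4, 5, 3, 4, 5, 0, 1, 2, 3, 4,
  5, 3, 4, 5, 0, 1, 2, 3, 4, 5, 3, 4, 5, 0, 1, 2, 3, 4, 5, 3, 4, 5, 0, 1, 2, 3, 4, 5, 3, 4, 5,
  0, 1, 2, 3, 4, 5, 3, 4, 5, 3, 4, 5, 0, 1, 2, 3, 4, 5, 3, 4, 5, 0, 1, 2, 3, 4, 5, 3, 4, 5, 0,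
  1, 2, 3, 4, 5, 3, 4, 5, 0, 1, 2, 6, 7, 8, 3, 4, 5, 0, 1, 2, 3, 4, 5, 3, 4, 5, 0, 1, 2, 3, 4,
  5, 3, 4, 5, 0, 1, 2, 3, 4, 5, 3, 4, 5, 0, 1, 2, 3, 4, 5, 3, 4, 5, 0, 1, 2, 3, 4, 5, 3, 4, 5,
  0, 1, 2, 3, 4, 5, 3, 4, 5, 0, 1, 2, 3, 4, 5, 3, 4, 5, 0, 1, 2, 3, 4, 5, 3, 4, 5, 0, 1, 2, 3,
  4, 5, 3, 4, 5, 0, 1, 2, 3, 4, 5, 3, 4, 5, 0, 1, 2, 3, 4, 5, 3, 4, 5, 3, 4, 5, 0, 1, 2, 3, 4,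
  5, 3, 4, 5, 0, 1, 2, 3, 4, 5, 3, 4, 5, 0, 1, 2, 3, 4, 5, 3, 4, 5, 0, 1, 2, 6, 7, 8, 3, 4, 5,
  0, 1, 2, 3, 4, 5, 3, 4, 5, 0, 1, 2, 3, 4, 5, 3, 4, 5, 0, 1, 2, 3, 4, 5, 3, 4, 5, 0, 1, 2, 3,
  4, 5, 3, 4, 5, 0, 1, 2, 3, 4, 5, 3, 4, 5, 0, 1, 2, 3, 4, 5, 3, 4, 5, 0, 1, 2, 3, 4, 5, 3, 4,
  5, 0, 1, 2, 3, 4, 5, 3, 4, 5, 0, 1, 2, 3, 4, 5, 3, 4, 5, 0, 1, 2, 3, 4, 5, 3, 4, 5, 0, 1, 2,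
  3, 4, 5, 3, 4, 5, 3, 4, 5, 0, 1, 2, 3, 4, 5, 3, 4, 5, 10]

def g0 : List ℕ :=
  [3, 4, 5, 3, 4, 5, 0, 1, 2, 3, 4, 5, 3, 4, 5, 0, 1, 2, 3, 4, 5, 3, 4, 5, 0, 1, 2, 3, 4, 5, 3,
  4, 5, 0, 1, 2, 3, 4, 5, 3, 4, 5, 0, 1, 2, 3, 4, 5, 3, 4, 5, 0, 1, 2, 3, 4, 5, 3, 4, 5, 0, 1,
  2, 3, 4, 5, 3, 4, 5, 0, 1, 2, 3, 4, 5, 3, 4, 5, 0, 1, 2, 3, 4, 5, 3, 4, 5, 0, 1, 2, 3, 4, 5,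
  3, 4, 5, 0, 1, 2, 3, 4, 5, 3, 4, 5, 3, 4, 5, 0, 1, 2, 3, 4, 5, 3, 4, 5, 0, 1, 2, 3, 4, 5, 3,
  4, 5, 0, 1, 2, 3, 4, 5, 3, 4, 5, 0, 1, 2, 6, 7, 8, 3, 4, 5, 0, 1, 2, 3, 4, 5, 3, 4, 5, 0, 1,
  2, 3, 4, 5, 3, 4, 5, 0, 1, 2, 3, 4, 5, 3, 4, 5, 0, 1, 2, 3, 4, 5, 3, 4, 5, 0, 1, 2, 3, 4, 5,
  3, 4, 5, 0, 1, 2, 3, 4, 5, 3, 4, 5, 0, 1, 2, 3, 4, 5, 3, 4, 5, 0, 1, 2, 3, 4, 5, 3, 4, 5, 0,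
  1, 2, 3, 4, 5, 3, 4, 5, 0, 1, 2, 3, 4, 5, 3, 4, 5, 0, 1, 2, 3, 4, 5, 3, 4, 5, 3, 4, 5, 0, 1,
  2, 3, 4, 5, 3, 4, 5, 0, 1, 2, 3, 4, 5, 3, 4, 5, 0, 1, 2, 3, 4, 5, 3, 4, 5, 0, 1, 2, 6, 7, 8,
  3, 4, 5, 0, 1, 2, 3, 4, 5, 3, 4, 5, 0, 1, 2, 3, 4, 5, 3, 4, 5, 0, 1, 2, 3, 4, 5, 3, 4, 5, 0,
  1, 2, 3, 4, 5, 3, 4, 5, 0, 1, 2, 3, 4, 5, 3, 4, 5, 0, 1, 2, 3, 4, 5, 3, 4, 5, 0, 1, 2, 3, 4,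
  5, 3, 4, 5, 0, 1, 2, 3, 4, 5, 3, 4, 5, 0, 1, 2, 3, 4, 5, 3, 4, 5, 0, 1, 2, 3, 4, 5, 3, 4, 5,
  0, 1, 2, 3, 4, 5, 3, 4, 5, 3, 4, 5, 0, 1, 2, 3, 4, 5, 3, 4, 5, 10]

def g1 : List ℕ :=
  [8, 3, 4, 5, 0, 1, 2, 3, 4, 5, 3, 4, 5, 0, 1, 2, 3, 4, 5, 3, 4, 5, 0, 1, 2, 3, 4, 5, 3, 4, 5,
  0, 1, 2, 3, 4, 5, 3, 4, 5, 0, 1, 2, 3, 4, 5, 3, 4, 5, 0, 1, 2, 3, 4, 5, 3, 4, 5, 0, 1, 2, 3,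
  4, 5, 3, 4, 5, 0, 1, 2, 3, 4, 5, 3, 4, 5, 0, 1, 2, 3, 4, 5, 3, 4, 5, 0, 1, 2, 3, 4, 5, 3, 4,
  5, 0, 1, 2, 3, 4, 5, 3, 4, 5, 3, 4, 5, 0, 1, 2, 3, 4, 5, 3, 4, 5, 0, 1, 2, 3, 4, 5, 3, 4, 5,
  0, 1, 2, 3, 4, 5, 3, 4, 5, 0, 1, 2, 6, 7, 8, 3, 4, 5, 0, 1, 2, 3, 4, 5, 3, 4, 5, 0, 1, 2, 3,
  4, 5, 3, 4, 5, 0, 1, 2, 3, 4, 5, 3, 4, 5, 0, 1, 2, 3, 4, 5, 3, 4, 5, 0, 1, 2, 3, 4, 5, 3, 4,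
  5, 0, 1, 2, 3, 4, 5, 3, 4, 5, 0, 1, 2, 3, 4, 5, 3, 4, 5, 0, 1, 2, 3, 4, 5, 3, 4, 5, 0, 1, 2,
  3, 4, 5, 3, 4, 5, 0, 1, 2, 3, 4, 5, 3, 4, 5, 0, 1, 2, 3, 4, 5, 3, 4, 5, 3, 4, 5, 0, 1, 2, 3,
  4, 5, 3, 4, 5, 0, 1, 2, 3, 4, 5, 3, 4, 5, 0, 1, 2, 3, 4, 5, 3, 4, 5, 0, 1, 2, 6, 7, 8, 3, 4,
  5, 0, 1, 2, 3, 4, 5, 3, 4, 5, 0, 1, 2, 3, 4, 5, 3, 4, 5, 0, 1, 2, 3, 4, 5, 3, 4, 5, 0, 1, 2,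
  3, 4, 5, 3, 4, 5, 0, 1, 2, 3, 4, 5, 3, 4, 5, 0, 1, 2, 3, 4, 5, 3, 4, 5, 0, 1, 2, 3, 4, 5, 3,
  4, 5, 0, 1, 2, 3, 4, 5, 3, 4, 5, 0, 1, 2, 3, 4, 5, 3, 4, 5, 0, 1, 2, 3, 4, 5, 3, 4, 5, 0, 1,
  2, 3, 4, 5, 3, 4, 5, 3, 4, 5, 0, 1, 2, 3, 4, 5, 3, 4, 5, 0, 1, 2, 3, 4, 5, 3, 4, 5, 0, 1, 2,
  3, 4, 5, 3, 4, 5, 0, 1, 2, 6, 7, 8, 3, 4, 5, 0, 1, 2, 3, 4, 5, 3, 4, 5, 0, 1, 2, 3, 4, 5, 3,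
  4, 5, 0, 1, 2, 3, 4, 5, 3, 4, 5, 0, 1, 2, 3, 4, 5, 3, 4, 5, 0, 1, 2, 3, 4, 5, 3, 4, 5, 0, 1,
  2, 3, 4, 5, 3, 4, 5, 0, 1, 2, 3, 4, 5, 3, 4, 5, 0, 1, 2, 3, 4, 5, 3, 4, 5, 0, 1, 2, 3, 4, 5,
  3, 4, 5, 0, 1, 2, 3, 4, 5, 3, 4, 5, 0, 1, 2, 3, 4, 5, 3, 4, 5, 3, 4, 5, 0, 1, 2, 3]

def g2 : List ℕ :=
  [9, 0, 1, 2, 3, 4, 5, 3, 4, 5, 3, 4, 5, 0, 1, 2, 3, 4, 5, 3, 4, 5, 0, 1, 2, 3, 4, 5, 3, 4, 5,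
  0, 1, 2, 3, 4, 5, 3, 4, 5, 0, 1, 2, 3, 4, 5, 3, 4, 5, 0, 1, 2, 3, 4, 5, 3, 4, 5, 0, 1, 2, 3,
  4, 5, 3, 4, 5, 0, 1, 2, 3, 4, 5, 3, 4, 5, 0, 1, 2, 3, 4, 5, 3, 4, 5, 0, 1, 2, 3, 4, 5, 3, 4,
  5, 3, 4, 5, 0, 1, 2, 3, 4, 5, 3, 4, 5, 0, 1, 2, 3, 4, 5, 3, 4, 5, 0, 1, 2, 3, 4, 5, 3, 4, 5,
  0, 1, 2, 3, 4, 5, 3, 4, 5, 0, 1, 2, 3, 4, 5, 3, 4, 5, 0, 1, 2, 3, 4, 5, 3, 4, 5, 0, 1, 2, 3,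
  4, 5, 3, 4, 5, 0, 1, 2, 3, 4, 5, 3, 4, 5, 0, 1, 2, 3, 4, 5, 3, 4, 5, 3, 4, 5, 0, 1, 2, 3, 4,
  5, 3, 4, 5, 0, 1, 2, 3, 4, 5, 3, 4, 5, 0, 1, 2, 3, 4, 5, 3, 4, 5, 0, 1, 2, 3, 4, 5, 3, 4, 5,
  0, 1, 2, 3, 4, 5, 3, 4, 5, 0, 1, 2, 3, 4, 5, 3, 4, 5, 0, 1, 2, 3, 4, 5, 3, 4, 5, 0, 1, 2, 3,
  4, 5, 3, 4, 5, 0, 1, 2, 3, 4, 5, 3, 4, 5, 3, 4, 5, 0, 1, 2, 3, 4, 5, 3, 4, 5, 0, 1, 2, 3, 4,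
  5, 3, 4, 5, 0, 1, 2, 3, 4, 5, 3, 4, 5, 0, 1, 2, 3, 4, 5, 3, 4, 5, 0, 1, 2, 3, 4, 5, 3, 4, 5,
  0, 1, 2, 3, 4, 5, 3, 4, 5, 0, 1, 2, 3, 4, 5, 3, 4, 5, 0, 1, 2, 3, 4, 5, 3, 4, 5, 0, 1, 2, 3,
  4, 5, 3, 4, 5, 0, 1, 2, 3, 4, 5, 3, 4, 5, 0, 1, 2, 3, 4, 5, 3, 4, 5, 3, 4, 5, 0, 1, 2, 3, 4,
  5, 3, 4, 5, 0, 1, 2, 3, 4, 5, 3, 4, 5, 0, 1, 2, 3, 4, 5, 3, 4, 5, 0, 1, 2]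

def g3 : List ℕ :=
  [5, 3, 4, 5, 3, 4, 5, 0, 1, 2, 3, 4, 5, 3, 4, 5, 0, 1, 2, 3, 4, 5, 3, 4, 5, 0, 1, 2, 3, 4, 5,
  3, 4, 5, 0, 1, 2, 3, 4, 5, 3, 4, 5, 0, 1, 2, 3, 4, 5, 3, 4, 5, 0, 1, 2, 3, 4, 5, 3, 4, 5, 0,
  1, 2, 3, 4, 5, 3, 4, 5, 0, 1, 2, 3, 4, 5, 3, 4, 5, 0, 1, 2, 3, 4, 5, 3, 4, 5, 3, 4, 5, 0, 1,
  2, 3, 4, 5, 3, 4, 5, 0, 1, 2, 3, 4, 5, 3, 4, 5, 0, 1, 2, 3, 4, 5, 3, 4, 5, 0, 1, 2, 3, 4, 5,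
  3, 4, 5, 0, 1, 2, 3, 4, 5, 3, 4, 5, 0, 1, 2, 3, 4, 5, 3, 4, 5, 0, 1, 2, 3, 4, 5, 3, 4, 5, 0,
  1, 2, 3, 4, 5, 3, 4, 5, 0, 1, 2, 3, 4, 5, 3, 4, 5, 3, 4, 5, 0, 1, 2, 3, 4, 5, 3, 4, 5, 0, 1,
  2, 3, 4, 5, 3, 4, 5, 0, 1, 2, 3, 4, 5, 3, 4, 5, 0, 1, 2, 3, 4, 5, 3, 4, 5, 0, 1, 2, 3, 4, 5,
  3, 4, 5, 0, 1, 2, 3, 4, 5, 3, 4, 5, 0, 1, 2, 3, 4, 5, 3, 4, 5, 0, 1, 2, 3, 4, 5, 3, 4, 5, 0,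
  1, 2, 3, 4, 5, 3, 4, 5, 3, 4, 5, 0, 1, 2, 3, 4, 5, 3, 4, 5, 0, 1, 2, 3, 4, 5, 3, 4, 5, 0, 1,
  2, 3, 4, 5, 3, 4, 5, 0, 1, 2, 3, 4, 5, 3, 4, 5, 0, 1, 2, 3, 4, 5, 3, 4, 5, 0, 1, 2, 3, 4, 5,
  3, 4, 5, 0, 1, 2, 3, 4, 5, 3, 4, 5, 0, 1, 2, 3, 4, 5, 3, 4, 5, 0, 1, 2, 3, 4, 5, 3, 4, 5, 3,
  4, 5, 0, 1, 2, 3, 4, 5, 3, 4, 5, 0, 1, 2, 3, 4, 5, 3, 4, 5, 0, 1, 2, 3, 4, 5, 3, 4, 5, 0, 1,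
  2, 3, 4, 5, 3, 4, 5, 0, 1, 2, 3, 4, 5, 3, 4, 5, 0, 1, 2, 3, 4, 5, 3, 4, 5, 0, 1, 2, 3, 4, 5,
  3, 4, 5, 0, 1, 2, 3, 4, 5, 3, 4, 5, 0, 1, 2, 3, 4, 5, 3, 4, 5, 3, 4]

def g4 : List ℕ :=
  [3, 4, 5, 0, 1, 2, 3, 4, 5, 3, 4, 5, 0, 1, 2, 3, 4, 5, 3, 4, 5, 0, 1, 2, 3, 4, 5, 3, 4, 5, 0,
  1, 2, 3, 4, 5, 3, 4, 5, 0, 1, 2, 3, 4, 5, 3, 4, 5, 0, 1, 2, 3, 4, 5, 3, 4, 5, 0, 1, 2, 3, 4,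
  5, 3, 4, 5, 0, 1, 2, 3, 4, 5, 3, 4, 5, 0, 1, 2, 3, 4, 5, 3, 4, 5, 3, 4, 5, 0, 1, 2, 3, 4, 5,
  3, 4, 5, 0, 1, 2, 3, 4, 5, 3, 4, 5, 0, 1, 2, 3, 4, 5, 3, 4, 5, 0, 1, 2, 3, 4, 5, 3, 4, 5, 0,
  1, 2, 3, 4, 5, 3, 4, 5, 0, 1, 2, 3, 4, 5, 3, 4, 5, 0, 1, 2, 3, 4, 5, 3, 4, 5, 0, 1, 2, 3, 4,
  5, 3, 4, 5, 0, 1, 2, 3, 4, 5, 3, 4, 5, 0, 1, 2, 3, 4, 5, 3, 4, 5, 0, 1, 2, 3, 4, 5, 3, 4, 5,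
  3, 4, 5, 0, 1, 2, 3, 4, 5, 3, 4, 5, 0, 1, 2, 3, 4, 5, 3, 4, 5, 0, 1, 2, 3, 4, 5, 3, 4, 5, 0,
  1, 2, 6, 7, 8, 3, 4, 5, 0, 1, 2, 3, 4, 5, 3, 4, 5, 0, 1, 2, 3, 4, 5, 3, 4, 5, 0, 1, 2, 3, 4,
  5, 3, 4, 5, 0, 1, 2, 3, 4, 5, 3, 4, 5, 0, 1, 2, 3, 4, 5, 3, 4, 5, 0, 1, 2, 3, 4, 5, 3, 4, 5,
  0, 1, 2, 3, 4, 5, 3, 4, 5, 0, 1, 2, 3, 4, 5, 3, 4, 5, 0, 1, 2, 3, 4, 5, 3, 4, 5, 0, 1, 2, 3,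
  4, 5, 3, 4, 5, 0, 1, 2, 3, 4, 5, 3, 4, 5, 3, 4, 5, 0, 1, 2, 3, 4, 5, 3, 4, 5, 0, 1, 2, 3, 4,
  5, 3, 4, 5, 0, 1, 2, 3, 4, 5, 3, 4, 5, 0, 1, 2, 6, 7, 8, 3, 4, 5, 0, 1, 2, 3, 4, 5, 3, 4, 5,
  0, 1, 2, 3, 4, 5, 3, 4, 5, 0, 1, 2, 3, 4, 5, 3, 4, 5, 0, 1, 2, 3, 4, 5, 3, 4, 5, 0, 1, 2, 3,
  4, 5, 3, 4, 5, 0, 1, 2, 3, 4, 5, 3, 4, 5, 0, 1, 2, 3, 4, 5, 3, 4, 5, 0, 1, 2, 3, 4, 5, 3, 4,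
  5, 0, 1, 2, 3, 4, 5, 3, 4, 5, 0, 1, 2, 3, 4, 5, 3, 4, 5, 0, 1, 2, 3, 4, 5, 3, 4, 5, 3, 4, 5,
  0, 1, 2, 3, 4, 5, 3, 4, 5, 10]

def g5 : List ℕ :=
  [1, 2, 3, 4, 5, 3, 4, 5, 0, 1, 2, 3, 4, 5, 3, 4, 5, 0, 1, 2, 3, 4, 5, 3, 4, 5, 3, 4, 5, 0, 1,
  2, 3, 4, 5, 3, 4, 5, 0, 1, 2, 3, 4, 5, 3, 4, 5, 0, 1, 2, 3, 4, 5, 3, 4, 5, 0, 1, 2, 6, 7, 8,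
  3, 4, 5, 0, 1, 2, 3, 4, 5, 3, 4, 5, 0, 1, 2, 3, 4, 5, 3, 4, 5, 0, 1, 2, 3, 4, 5, 3, 4, 5, 0,
  1, 2, 3, 4, 5, 3, 4, 5, 0, 1, 2, 3, 4, 5, 3, 4, 5, 0, 1, 2, 3, 4, 5, 3, 4, 5, 0, 1, 2, 3, 4,
  5, 3, 4, 5, 0, 1, 2, 3, 4, 5, 3, 4, 5, 0, 1, 2, 3, 4, 5, 3, 4, 5, 0, 1, 2, 3, 4, 5, 3, 4, 5,
  0, 1, 2, 3, 4, 5, 3, 4, 5, 0, 1, 2, 3, 4, 5, 3, 4, 5, 3, 4, 5, 0, 1, 2, 3, 4, 5, 3, 4, 5, 0,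
  1, 2, 3, 4, 5, 3, 4, 5, 0, 1, 2, 3, 4, 5, 3, 4, 5, 0, 1, 2, 6, 7, 8, 3, 4, 5, 0, 1, 2, 3, 4,
  5, 3, 4, 5, 0, 1, 2, 3, 4, 5, 3, 4, 5, 0, 1, 2, 3, 4, 5, 3, 4, 5, 0, 1, 2, 3, 4, 5, 3, 4, 5,
  0, 1, 2, 3, 4, 5, 3, 4, 5, 0, 1, 2, 3, 4, 5, 3, 4, 5, 0, 1, 2, 3, 4, 5, 3, 4, 5, 0, 1, 2, 3,
  4, 5, 3, 4, 5, 0, 1, 2, 3, 4, 5, 3, 4, 5, 0, 1, 2, 3, 4, 5, 3, 4, 5, 0, 1, 2, 3, 4, 5, 3, 4,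
  5, 0, 1, 2, 3, 4, 5, 3, 4, 5, 3, 4, 5, 0, 1, 2, 3, 4, 5, 3, 4, 5, 0, 1, 2, 3, 4, 5, 3, 4, 5,
  0, 1, 2, 3, 4, 5, 3, 4, 5, 0, 1, 2, 6, 7, 8, 3, 4, 5, 0, 1, 2, 3, 4, 5, 3, 4, 5, 0, 1, 2, 3,
  4, 5, 3, 4, 5, 0, 1, 2, 3, 4, 5, 3, 4, 5, 0]

def g6 : List ℕ :=
  [9, 0, 1, 2, 3, 4, 5, 3, 4, 5, 3, 4, 5, 0, 1, 2, 3, 4, 5, 3, 4, 5, 0, 1, 2, 3, 4, 5, 3, 4, 5,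
  0, 1, 2, 3, 4, 5, 3, 4, 5, 0, 1, 2, 3, 4, 5, 3, 4, 5, 0, 1, 2, 3, 4, 5, 3, 4, 5, 0, 1, 2, 3,
  4, 5, 3, 4, 5, 0, 1, 2, 3, 4, 5, 3, 4, 5, 0, 1, 2, 3, 4, 5, 3, 4, 5, 0, 1, 2, 3, 4, 5, 3, 4,
  5, 3, 4, 5, 0, 1, 2, 3, 4, 5, 3, 4, 5, 0, 1, 2, 3, 4, 5, 3, 4, 5, 0, 1, 2, 3, 4, 5, 3, 4, 5,
  0, 1, 2, 3, 4, 5, 3, 4, 5, 0, 1, 2, 3, 4, 5, 3, 4, 5, 0, 1, 2, 3, 4, 5, 3, 4, 5, 0, 1, 2, 3,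
  4, 5, 3, 4, 5, 0, 1, 2, 3, 4, 5, 3, 4, 5, 0, 1, 2, 3, 4, 5, 3, 4, 5, 3, 4, 5, 0, 1, 2, 3, 4,
  5, 3, 4, 5, 0, 1, 2, 3, 4, 5, 3, 4, 5, 0, 1, 2, 3, 4, 5, 3, 4, 5, 0, 1, 2, 3, 4, 5, 3, 4, 5,
  0, 1, 2, 3, 4, 5, 3, 4, 5, 0, 1, 2, 3, 4, 5, 3, 4, 5, 0, 1, 2, 3, 4, 5, 3, 4, 5, 0, 1, 2, 3,
  4, 5, 3, 4, 5, 0, 1, 2, 3, 4, 5, 3, 4, 5, 3, 4, 5, 0, 1, 2, 3, 4, 5, 3, 4, 5, 0, 1, 2, 3, 4,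
  5, 3, 4, 5, 0, 1, 2, 3, 4, 5, 3, 4, 5, 0, 1, 2, 3, 4, 5, 3, 4, 5, 0, 1, 2, 3, 4, 5, 3, 4, 5,
  0, 1, 2, 3, 4, 5, 3, 4, 5, 0, 1, 2, 3, 4, 5, 3, 4, 5, 0, 1, 2, 3, 4, 5, 3, 4, 5, 0, 1, 2, 3,
  4, 5, 3, 4, 5, 0, 1, 2, 3, 4, 5, 3, 4, 5, 0, 1, 2, 3, 4, 5, 3, 4, 5, 3, 4, 5, 0, 1, 2, 3, 4,
  5, 3, 4, 5, 0, 1, 2, 3, 4, 5, 3, 4, 5, 0, 1, 2, 3, 4, 5, 3, 4, 5, 0, 1, 2, 6, 7, 8, 3, 4, 5,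
  0, 1, 2, 3, 4, 5, 3, 4, 5, 0, 1, 2, 3, 4, 5, 3, 4, 5, 0, 1, 2, 3, 4, 5, 3, 4, 5, 0, 1, 2, 3,
  4, 5, 3, 4, 5, 0, 1, 2, 3, 4, 5, 3, 4, 5, 0, 1, 2, 3, 4, 5, 3, 4, 5, 0, 1, 2, 3, 4, 5, 3, 4,
  5, 0, 1, 2, 3, 4, 5, 3, 4, 5, 0, 1, 2, 3, 4, 5, 3, 4, 5, 0, 1, 2, 3, 4, 5, 3, 4, 5, 0, 1, 2,
  3, 4, 5, 3, 4, 5, 3, 4, 5, 0, 1, 2, 3, 4, 5, 3, 4, 5, 0, 1, 2, 3, 4, 5, 3, 4, 5, 0, 1, 2, 3,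
  4, 5, 3, 4, 5, 0, 1, 2, 6, 7, 8, 3, 4, 5, 0, 1, 2, 3, 4, 5, 3, 4, 5, 0, 1, 2, 3, 4, 5, 3, 4,
  5, 0, 1, 2, 3, 4, 5, 3, 4, 5, 0, 1, 2, 3, 4, 5, 3, 4, 5, 0, 1, 2, 3, 4, 5, 3, 4, 5, 0, 1, 2,
  3, 4, 5, 3, 4, 5, 0, 1, 2, 3, 4, 5, 3, 4, 5, 0, 1, 2, 3, 4, 5, 3, 4, 5, 0, 1, 2, 3, 4, 5, 3,
  4, 5, 0, 1, 2, 3, 4, 5, 3, 4, 5, 0, 1, 2, 3, 4, 5, 3, 4, 5, 3, 4, 5, 0, 1, 2, 3, 4, 5, 3, 4,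
  5, 10]

def g7 : List ℕ :=
  [2, 3, 4, 5, 3, 4, 5, 3, 4, 5, 0, 1, 2, 3, 4, 5, 3, 4, 5, 0, 1, 2, 3, 4, 5, 3, 4, 5, 0, 1, 2,
  3, 4, 5, 3, 4, 5, 0, 1, 2, 3, 4, 5, 3, 4, 5, 0, 1, 2, 3, 4, 5, 3, 4, 5, 0, 1, 2, 3, 4, 5, 3,
  4, 5, 0, 1, 2, 3, 4, 5, 3, 4, 5, 0, 1, 2, 3, 4, 5, 3, 4, 5, 0, 1, 2, 3, 4, 5, 3, 4, 5, 0, 1,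
  2, 3, 4, 5, 3, 4, 5, 0, 1, 2, 3, 4, 5, 3, 4, 5, 3, 4, 5, 0, 1, 2, 3, 4, 5, 3, 4, 5, 0, 1, 2,
  3, 4, 5, 3, 4, 5, 0, 1, 2, 3, 4, 5, 3, 4, 5, 0, 1, 2, 3, 4, 5, 3, 4, 5, 0, 1, 2, 3, 4, 5, 3,
  4, 5, 0, 1, 2, 3, 4, 5, 3, 4, 5, 0, 1, 2, 3, 4, 5, 3, 4, 5, 0, 1, 2, 3, 4, 5, 3, 4, 5, 0, 1,
  2, 3, 4, 5, 3, 4, 5, 0, 1, 2, 3, 4, 5, 3, 4, 5, 0, 1, 2, 3, 4, 5, 3, 4, 5, 3, 4, 5, 0, 1, 2,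
  3, 4, 5, 3, 4, 5, 0, 1, 2, 3, 4, 5, 3, 4, 5, 0, 1, 2, 3, 4, 5, 3, 4, 5, 0, 1, 2, 3, 4, 5, 3,
  4, 5, 0, 1, 2, 3, 4, 5, 3, 4, 5, 0, 1, 2, 3, 4, 5, 3, 4, 5, 0, 1, 2, 3, 4, 5, 3, 4, 5, 0, 1,
  2, 3, 4, 5, 3, 4, 5, 0, 1, 2, 3, 4, 5, 3, 4, 5, 0, 1, 2, 3, 4, 5, 3, 4, 5, 0, 1, 2, 3, 4, 5,
  3, 4, 5, 3, 4, 5, 0]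

def g8 : List ℕ :=
  [8, 3, 4, 5, 0, 1, 2, 3, 4, 5, 3, 4, 5, 0, 1, 2, 3, 4, 5, 3, 4, 5, 0, 1, 2, 3, 4, 5, 3, 4, 5,
  0, 1, 2, 3, 4, 5, 3, 4, 5, 0, 1, 2, 3, 4, 5, 3, 4, 5, 0, 1, 2, 3, 4, 5, 3, 4, 5, 0, 1, 2, 3,
  4, 5, 3, 4, 5, 0, 1, 2, 3, 4, 5, 3, 4, 5, 0, 1, 2, 3, 4, 5, 3, 4, 5, 0, 1, 2, 3, 4, 5, 3, 4,
  5, 0, 1, 2, 3, 4, 5, 3, 4, 5, 3, 4, 5, 0, 1, 2, 3, 4, 5, 3, 4, 5, 0, 1, 2, 3, 4, 5, 3, 4, 5,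
  0, 1, 2, 3, 4, 5, 3, 4, 5, 0, 1, 2, 6, 7, 8, 3, 4, 5, 0, 1, 2, 3, 4, 5, 3, 4, 5, 0, 1, 2, 3,
  4, 5, 3, 4, 5, 0, 1, 2, 3, 4, 5, 3, 4, 5, 0, 1, 2, 3, 4, 5, 3, 4, 5, 0, 1, 2, 3, 4, 5, 3, 4,
  5, 0, 1, 2, 3, 4, 5, 3, 4, 5, 0, 1, 2, 3, 4, 5, 3, 4, 5, 0, 1, 2, 3, 4, 5, 3, 4, 5, 0, 1, 2,
  3, 4, 5, 3, 4, 5, 0, 1, 2, 3, 4, 5, 3, 4, 5, 0, 1, 2, 3, 4, 5, 3, 4, 5, 3, 4, 5, 0, 1, 2, 3,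
  4, 5, 3, 4, 5, 0, 1, 2, 3, 4, 5, 3, 4, 5, 0, 1, 2, 3, 4, 5, 3, 4, 5, 0, 1, 2, 6, 7, 8, 3, 4,
  5, 0, 1, 2, 3, 4, 5, 3, 4, 5, 0, 1, 2, 3, 4, 5, 3, 4, 5, 0, 1, 2, 3, 4, 5, 3, 4, 5, 0, 1, 2,
  3, 4, 5, 3, 4, 5, 0, 1, 2, 3, 4, 5, 3, 4, 5, 0, 1, 2, 3, 4, 5, 3, 4, 5, 0, 1, 2, 3, 4, 5, 3,
  4, 5, 0, 1, 2, 3, 4, 5, 3, 4, 5, 0, 1, 2, 3, 4, 5, 3, 4, 5, 0, 1, 2, 3, 4, 5, 3, 4, 5, 0, 1,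
  2, 3, 4, 5, 3, 4, 5, 3, 4, 5, 0, 1, 2, 3, 4, 5, 3, 4, 5, 0, 1, 2, 3, 4, 5, 3, 4, 5, 0, 1, 2,
  3, 4, 5, 3, 4, 5, 0, 1, 2, 6, 7, 8, 3, 4, 5, 0, 1, 2, 3, 4, 5, 3, 4, 5, 0, 1, 2, 3, 4, 5, 3,
  4, 5, 0, 1, 2, 3, 4, 5, 3, 4, 5, 0, 1, 2, 3, 4, 5, 3, 4, 5, 0, 1, 2, 3, 4, 5, 3, 4, 5, 0, 1,
  2, 3, 4, 5, 3, 4, 5, 0, 1, 2, 3, 4, 5, 3, 4, 5, 0, 1, 2, 3, 4, 5, 3, 4, 5, 0, 1, 2, 3, 4, 5,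
  3, 4, 5, 0, 1, 2, 3, 4, 5, 3, 4, 5, 0, 1, 2, 3, 4, 5, 3, 4, 5, 3, 4, 5, 0, 1, 2, 3, 4, 5, 3,
  4, 5, 0, 1, 2, 3, 4, 5, 3, 4, 5, 0, 1, 2, 3, 4, 5, 3, 4, 5, 0, 1, 2, 6, 7, 8, 3, 4, 5, 0, 1,
  2, 3, 4, 5, 3, 4, 5, 0, 1, 2, 3, 4, 5, 3, 4, 5, 0, 1, 2, 3, 4, 5, 3, 4, 5, 0, 1, 2, 3, 4, 5,
  3, 4, 5, 0, 1, 2, 3, 4, 5, 3, 4, 5, 0, 1, 2, 3, 4, 5, 3, 4, 5, 0, 1, 2, 3, 4, 5, 3, 4, 5, 0,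
  1, 2, 3, 4, 5, 3, 4, 5, 0, 1, 2, 3, 4, 5, 3, 4, 5, 0, 1, 2, 3, 4, 5, 3, 4, 5, 0, 1, 2, 3, 4,
  5, 3, 4, 5, 0, 1, 2, 3, 4, 5, 3, 4, 5, 3, 4, 5, 0, 1, 2, 3, 4, 5, 3, 4, 5, 0, 1, 2, 3, 4, 5,
  3, 4, 5, 0, 1, 2, 3, 4, 5, 3, 4, 5, 0, 1, 2, 6, 7, 8, 3, 4, 5, 0, 1, 2, 3, 4, 5, 3, 4, 5, 0,
  1, 2, 3, 4, 5, 3, 4, 5, 0, 1, 2, 3, 4, 5, 3, 4, 5, 0, 1, 2, 3, 4, 5, 3, 4, 5, 0, 1, 2, 3, 4,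
  5, 3, 4, 5, 0, 1, 2, 3, 4, 5, 3, 4, 5, 0, 1, 2, 3, 4, 5, 3, 4, 5, 0, 1, 2, 3, 4, 5, 3, 4, 5,
  0, 1, 2, 3, 4, 5, 3, 4, 5, 0, 1, 2, 3, 4, 5, 3, 4, 5, 0, 1, 2, 3, 4, 5, 3, 4, 5, 0, 1, 2, 3,
  4, 5, 3, 4, 5, 3, 4, 5, 0, 1, 2, 3, 4, 5, 3, 4, 5, 0, 1, 2, 3, 4, 5, 3, 4, 5, 0, 1, 2, 3, 4,
  5, 3, 4, 5, 0, 1, 2, 6, 7, 8, 3, 4, 5, 0, 1, 2, 3, 4, 5, 3, 4, 5, 0, 1, 2, 3, 4, 5, 3, 4, 5,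
  0, 1, 2, 3, 4, 5, 3, 4, 5, 0]

def g9 : List ℕ :=
  [5, 3, 4, 5, 3, 4, 5, 0, 1, 2, 3, 4, 5, 3, 4, 5, 0, 1, 2, 3, 4, 5, 3, 4, 5, 0, 1, 2, 3, 4, 5,
  3, 4, 5, 0, 1, 2, 3, 4, 5, 3, 4, 5, 0, 1, 2, 3, 4, 5, 3, 4, 5, 0, 1, 2, 3, 4, 5, 3, 4, 5, 0,
  1, 2, 3, 4, 5, 3, 4, 5, 0, 1, 2, 3, 4, 5, 3, 4, 5, 0, 1, 2, 3, 4, 5, 3, 4, 5, 3, 4, 5, 0, 1,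
  2, 3, 4, 5, 3, 4, 5, 0, 1, 2, 3, 4, 5, 3, 4, 5, 0, 1, 2, 3, 4, 5, 3, 4, 5, 0, 1, 2, 3, 4, 5,
  3, 4, 5, 0, 1, 2, 3, 4, 5, 3, 4, 5, 0, 1, 2, 3, 4, 5, 3, 4, 5, 0, 1, 2, 3, 4, 5, 3, 4, 5, 0,
  1, 2, 3, 4, 5, 3, 4, 5, 0, 1, 2, 3, 4, 5, 3, 4, 5, 3, 4, 5, 0, 1, 2, 3, 4, 5, 3, 4, 5, 0, 1,
  2, 3, 4, 5, 3, 4, 5, 0, 1, 2, 3, 4, 5, 3, 4, 5, 0, 1, 2, 3, 4, 5, 3, 4, 5, 0, 1, 2, 3, 4, 5,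
  3, 4, 5, 0, 1, 2, 3, 4, 5, 3, 4, 5, 0, 1, 2, 3, 4, 5, 3, 4, 5, 0, 1, 2, 3, 4, 5, 3, 4, 5, 0,
  1, 2, 3, 4, 5, 3, 4, 5, 3, 4, 5, 0, 1, 2, 3, 4, 5, 3, 4, 5, 0, 1, 2, 3, 4, 5, 3, 4, 5, 0, 1,
  2, 3, 4, 5, 3, 4, 5, 0, 1, 2, 3, 4, 5, 3, 4, 5, 0, 1, 2, 3, 4, 5, 3, 4, 5, 0, 1, 2, 3, 4, 5,
  3, 4, 5, 0, 1, 2, 3, 4, 5, 3, 4, 5, 0, 1, 2, 3, 4, 5, 3, 4, 5, 0, 1, 2, 3, 4, 5, 3, 4, 5, 3,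
  4, 5, 0, 1, 2, 3, 4, 5, 3, 4, 5, 0, 1, 2, 3, 4, 5, 3, 4, 5, 0, 1, 2, 3, 4, 5, 3, 4, 5, 0, 1,
  2, 3, 4, 5, 3, 4, 5, 0, 1, 2, 3, 4, 5, 3, 4, 5, 0, 1, 2, 3, 4, 5, 3, 4, 5, 0, 1, 2, 3, 4, 5,
  3, 4, 5, 0, 1, 2, 3, 4, 5, 3, 4, 5, 0, 1, 2, 3, 4, 5, 3, 4, 5, 3, 4, 5, 0, 1, 2, 3, 4, 5, 3,
  4, 5, 0, 1, 2, 3, 4, 5, 3, 4, 5, 0, 1, 2, 3, 4, 5, 3, 4, 5, 0, 1, 2, 3, 4, 5, 3, 4, 5, 0, 1,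
  2, 3, 4, 5, 3, 4, 5, 0, 1, 2, 3, 4, 5, 3, 4, 5, 0, 1, 2, 3, 4, 5, 3, 4, 5, 0, 1, 2, 3, 4, 5,
  3, 4, 5, 0, 1, 2, 3, 4, 5, 3, 4, 5, 0, 1, 2, 3, 4, 5, 3, 4, 5, 0, 1, 2, 3, 4, 5, 3, 4, 5, 3,
  4, 5, 0, 1, 2, 3, 4, 5, 3, 4, 5, 0, 1, 2, 3, 4, 5, 3, 4, 5, 0, 1, 2, 3, 4, 5, 3, 4, 5, 0, 1,
  2, 3, 4, 5, 3, 4, 5, 0, 1, 2, 3, 4, 5, 3, 4, 5, 0, 1, 2, 3, 4, 5, 3, 4, 5, 0, 1, 2, 3, 4, 5,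
  3, 4, 5, 0, 1, 2, 3, 4, 5, 3, 4, 5, 0, 1, 2, 3, 4, 5, 3, 4, 5, 0, 1, 2, 3, 4, 5, 3, 4, 5, 0,
  1, 2, 3, 4, 5, 3, 4, 5, 3, 4, 5, 0, 1, 2, 3, 4, 5, 3, 4, 5, 0, 1, 2, 3, 4, 5, 3, 4, 5, 0, 1,
  2, 3, 4, 5, 3, 4, 5, 0, 1, 2, 3, 4, 5, 3, 4, 5, 0, 1, 2, 3, 4, 5, 3, 4, 5, 0, 1, 2, 3, 4, 5,
  3, 4, 5, 0, 1, 2, 3, 4, 5, 3, 4, 5, 0, 1, 2, 3, 4, 5, 3, 4, 5, 0, 1, 2, 3, 4, 5, 3, 4, 5, 0,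
  1, 2, 3, 4, 5, 3, 4, 5, 0, 1, 2, 3, 4, 5, 3, 4, 5, 3, 4, 5, 0]

def sup : List ℕ :=
  [9, 0, 1, 2, 3, 4, 5, 3, 4, 5, 3, 4, 5, 0, 1, 2, 3, 4, 5, 3, 4, 5, 0, 1, 2, 3, 4, 5, 3, 4, 5,
  0, 1, 2, 3, 4, 5, 3, 4, 5, 0, 1, 2, 3, 4, 5, 3, 4, 5, 0, 1, 2, 3, 4, 5, 3, 4, 5, 0, 1, 2, 3,
  4, 5, 3, 4, 5, 0, 1, 2, 3, 4, 5, 3, 4, 5, 0, 1, 2, 3, 4, 5, 3, 4, 5, 0, 1, 2, 3, 4, 5, 3, 4,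
  5, 3, 4, 5, 0, 1, 2, 3, 4, 5, 3, 4, 5, 0, 1, 2, 3, 4, 5, 3, 4, 5, 0, 1, 2, 3, 4, 5, 3, 4, 5,
  0, 1, 2, 3, 4, 5, 3, 4, 5, 0, 1, 2, 3, 4, 5, 3, 4, 5, 0, 1, 2, 3, 4, 5, 3, 4, 5, 0, 1, 2, 3,
  4, 5, 3, 4, 5, 0, 1, 2, 3, 4, 5, 3, 4, 5, 0, 1, 2, 3, 4, 5, 3, 4, 5, 3, 4, 5, 0, 1, 2, 3, 4,
  5, 3, 4, 5, 0, 1, 2, 3, 4, 5, 3, 4, 5, 0, 1, 2, 3, 4, 5, 3, 4, 5, 0, 1, 2, 3, 4, 5, 3, 4, 5,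
  0, 1, 2, 3, 4, 5, 3, 4, 5, 0, 1, 2, 3, 4, 5, 3, 4, 5, 0, 1, 2, 3, 4, 5, 3, 4, 5, 0, 1, 2, 3,
  4, 5, 3, 4, 5, 0, 1, 2, 3, 4, 5, 3, 4, 5, 3, 4, 5, 0, 1, 2, 3, 4, 5, 3, 4, 5, 0, 1, 2, 3, 4,
  5, 3, 4, 5, 0, 1, 2, 3, 4, 5, 3, 4, 5, 0, 1, 2, 3, 4, 5, 3, 4, 5, 0, 1, 2, 3, 4, 5, 3, 4, 5,
  0, 1, 2, 3, 4, 5, 3, 4, 5, 0, 1, 2, 3, 4, 5, 3, 4, 5, 0, 1, 2, 3, 4, 5, 3, 4, 5, 0, 1, 2, 3,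
  4, 5, 3, 4, 5, 3, 4, 5, 0, 1, 2, 3, 4, 5, 3, 4, 5, 0, 1, 2, 3, 4, 5, 3, 4, 5, 0, 1, 2, 3, 4,
  5, 3, 4, 5, 0, 1, 2, 3, 4, 5, 3, 4, 5, 0, 1, 2, 3, 4, 5, 3, 4, 5, 0, 1, 2, 3, 4, 5, 3, 4, 5,
  0, 1, 2, 3, 4, 5, 3, 4, 5, 0, 1, 2, 3, 4, 5, 3, 4, 5, 0, 1, 2, 3, 4, 5, 3, 4, 5, 0, 1, 2, 3,
  4, 5, 3, 4, 5, 0, 1, 2, 3, 4, 5, 3, 4, 5, 3, 4, 5, 0, 1, 2, 3, 4, 5, 3, 4, 5, 0, 1, 2, 3, 4,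
  5, 3, 4, 5, 0, 1, 2, 3, 4, 5, 3, 4, 5, 0, 1, 2, 3, 4, 5, 3, 4, 5, 0, 1, 2, 3, 4, 5, 3, 4, 5,
  0, 1, 2, 3, 4, 5, 3, 4, 5, 0, 1, 2, 3, 4, 5, 3, 4, 5, 0, 1, 2, 3, 4, 5, 3, 4, 5, 0, 1, 2, 3,
  4, 5, 3, 4, 5, 0, 1, 2, 3, 4, 5, 3, 4, 5, 0, 1, 2, 3, 4, 5, 3, 4, 5, 3, 4, 5, 0, 1, 2, 3, 4,
  5, 3, 4, 5, 0, 1, 2, 3, 4, 5, 3, 4, 5, 0, 1, 2, 3, 4, 5, 3, 4, 5, 0, 1, 2, 6, 7, 8, 3, 4, 5,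
  0, 1, 2, 3, 4, 5, 3, 4, 5, 0, 1, 2, 3, 4, 5, 3, 4, 5, 0, 1, 2, 3, 4, 5, 3, 4, 5, 0, 1, 2, 3,
  4, 5, 3, 4, 5, 0, 1, 2, 3, 4, 5, 3, 4, 5, 0, 1, 2, 3, 4, 5, 3, 4, 5, 0, 1, 2, 3, 4, 5, 3, 4,
  5, 0, 1, 2, 3, 4, 5, 3, 4, 5, 0, 1, 2, 3, 4, 5, 3, 4, 5, 0, 1, 2, 3, 4, 5, 3, 4, 5, 0, 1, 2,
  3, 4, 5, 3, 4, 5, 0, 1, 2, 3, 4, 5, 3, 4, 5, 3, 4, 5, 0, 1, 2, 3, 4, 5, 3, 4, 5, 0, 1, 2, 3,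
  4, 5, 3, 4, 5, 0, 1, 2, 3, 4, 5, 3, 4, 5, 0, 1, 2, 6, 7, 8, 3, 4, 5, 0, 1, 2, 3, 4, 5, 3, 4,
  5, 0, 1, 2, 3, 4, 5, 3, 4, 5, 0, 1, 2, 3, 4, 5, 3, 4, 5, 0, 1, 2, 3, 4, 5, 3, 4, 5, 0, 1, 2,
  3, 4, 5, 3, 4, 5, 0, 1, 2, 3, 4, 5, 3, 4, 5, 0, 1, 2, 3, 4, 5, 3, 4, 5, 0, 1, 2, 3, 4, 5, 3,
  4, 5, 0, 1, 2, 3, 4, 5, 3, 4, 5, 0, 1, 2, 3, 4, 5, 3, 4, 5, 0, 1, 2, 3, 4, 5, 3, 4, 5, 3, 4,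
  5, 0, 1, 2, 3, 4, 5, 3, 4, 5, 0, 1, 2, 3, 4, 5, 3, 4, 5, 0, 1, 2, 3, 4, 5, 3, 4, 5, 0, 1, 2,
  6, 7, 8, 3, 4, 5, 0, 1, 2, 3, 4, 5, 3, 4, 5, 0, 1, 2, 3, 4, 5, 3, 4, 5, 0, 1, 2, 3, 4, 5, 3,
  4, 5, 0, 1, 2, 3, 4, 5, 3, 4, 5, 0, 1, 2, 3, 4, 5, 3, 4, 5, 0, 1, 2, 3, 4, 5, 3, 4, 5, 0, 1,
  2, 3, 4, 5, 3, 4, 5, 0, 1, 2, 3, 4, 5, 3, 4, 5, 0, 1, 2, 3, 4, 5, 3, 4, 5, 0, 1, 2, 3, 4, 5,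
  3, 4, 5, 0, 1, 2, 3, 4, 5, 3, 4, 5, 3, 4, 5, 0, 1, 2, 3, 4, 5, 3, 4, 5, 0, 1, 2, 3, 4, 5, 3,
  4, 5, 0, 1, 2, 3, 4, 5, 3, 4, 5, 0, 1, 2, 6, 7, 8, 3, 4, 5, 0, 1, 2, 3, 4, 5, 3, 4, 5, 0, 1,
  2, 3, 4, 5, 3, 4, 5, 0, 1, 2, 3, 4, 5, 3, 4, 5, 0, 1, 2, 3, 4, 5, 3, 4, 5, 0, 1, 2, 3, 4, 5,
  3, 4, 5, 0, 1, 2, 3, 4, 5, 3, 4, 5, 0, 1, 2, 3, 4, 5, 3, 4, 5, 0, 1, 2, 3, 4, 5, 3, 4, 5, 0,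
  1, 2, 3, 4, 5, 3, 4, 5, 0, 1, 2, 3, 4, 5, 3, 4, 5, 0, 1, 2, 3, 4, 5, 3, 4, 5, 3, 4, 5, 0, 1,
  2, 3, 4, 5, 3, 4, 5, 10]

def fam : List (List ℕ) :=
  [x0, y0, x1, y1, x2, y2, x3, y3, h0, h1, h2, h3, h4]

end Vale.Agent.P333.H476.TF
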